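import Vale.Agent.P202C.Red

/-!
P202 in characteristic zero, module YD6: in a Cohen-Macaulay local ring with infinite residue field
there is a regular sequence which is a reduction of the maximal ideal (strong form; the proof is
the one of `P202C.exists_reduction_proved`).
-/

set_option autoImplicit false

namespace Vale.Agent.P202Y

open IsLocalRing Vale.Agent.P202 Vale.Agent.P202C RingTheory.Sequence

universe u

/-- YD6: regular sequence which is a reduction, strong form. -/
theorem exists_reduction'_proved (R : Type u) [CommRing R] [IsLocalRing R] [IsNoetherianRing R]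
    [Infinite (ResidueField R)] (D : ℕ) (hD : ringKrullDim R = D)
    (hCM : ∃ rs : List R, RingTheory.Sequence.IsRegular R rs ∧ rs.length = D) :
    ∃ y : Fin D → R, (∀ l, y l ∈ maximalIdeal R) ∧
      RingTheory.Sequence.IsRegular R (List.ofFn y) ∧
      ∃ c : ℕ, maximalIdeal R ^ (c + 1) ≤ Ideal.span (Set.range y) * maximalIdeal R ^ c := by
  obtain ⟨rs, hrs, hl⟩ := hCM
  have h0 := rd_dp_of_list rs hrs rs.length le_rfl
  rw [Nat.sub_self, List.take_zero, Ideal.ofList_nil, hl] at h0
  obtain ⟨X, hX, -⟩ := rd_seq D h0 D le_rfl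
  have hPD : P X D ≤ maximalIdeal R := by
    unfold P
    rw [Ideal.span_le]
    rintro _ ⟨l, hl, rfl⟩
    exact (hX l hl).1
  have hLall : Ideal.ofList (List.ofFn (fun l : Fin D => X l)) = P X D := by
    have := rd_ofList X D D le_rfl
    rwa [List.take_of_length_le (by rw [List.length_ofFn])] at this
  have hspan : Ideal.span (Set.range (fun l : Fin D => X l)) = P X D := by
    unfold P
    congr 1
    ext r
    constructor
    · rintro ⟨l, rfl⟩
      exact ⟨l, l.isLt, rfl⟩
    · rintro ⟨j, hj, rfl⟩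
      exact ⟨⟨j, hj⟩, rfl⟩
  have hreg : RingTheory.Sequence.IsRegular R (List.ofFn (fun l : Fin D => X l)) := by
    refine ⟨⟨fun i hi => ?_⟩, ?_⟩
    · rw [List.length_ofFn] at hi
      rw [isSMulRegular_quotient_iff_mem_of_smul_mem]
      intro r hr
      rw [smul_eq_mul, Ideal.mul_top, rd_ofList X D i hi.le] at hr ⊢
      refine (hX i hi).2.1 r ?_
      simpa using hr
    · rw [hLall, smul_eq_mul, Ideal.mul_top]
      intro h
      have h1 : (1 : R) ∈ maximalIdeal R := hPD (h ▸ Submodule.mem_top)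
      exact (Ideal.ne_top_iff_one _).mp (maximalIdeal.isMaximal R).ne_top h1
  -- finite length
  have hdim : ringKrullDim (R ⧸ P X D) = 0 := by
    have h1 := ringKrullDim_add_length_eq_ringKrullDim_of_isRegular _ hreg
    rw [hLall, List.length_ofFn, hD] at h1
    have hnt : Nontrivial (R ⧸ P X D) := Ideal.Quotient.nontrivial_iff.mpr
      (fun h => (maximalIdeal.isMaximal R).ne_top (top_le_iff.mp (h ▸ hPD)))
    have h2 : (0 : WithBot ℕ∞) ≤ ringKrullDim (R ⧸ P X D) := ringKrullDim_nonneg_of_nontrivial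
    obtain ⟨e, he⟩ : ∃ e : ℕ∞, ringKrullDim (R ⧸ P X D) = (e : WithBot ℕ∞) := by
      cases h : ringKrullDim (R ⧸ P X D) with
      | bot => rw [h] at h2; exact absurd h2 (by simp)
      | coe e => exact ⟨e, rfl⟩
    rw [he] at h1 ⊢
    have h3 : e + (D : ℕ∞) = (D : ℕ∞) := by exact_mod_cast h1
    have h4 : e + (D : ℕ∞) ≤ 0 + (D : ℕ∞) := by rw [h3, zero_add]
    have h5 : e ≤ 0 := (ENat.add_le_add_iff_right (ENat.natCast_ne_top D)).mp h4
    have h6 : e = 0 := le_antisymm h5 zero_le
    rw [h6]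
    rfl
  have hfin : ∃ c, maximalIdeal R ^ c ≤ P X D := by
    have hnt : Nontrivial (R ⧸ P X D) := Ideal.Quotient.nontrivial_iff.mpr
      (fun h => (maximalIdeal.isMaximal R).ne_top (top_le_iff.mp (h ▸ hPD)))
    have h1 : Ring.KrullDimLE 0 (R ⧸ P X D) := ringKrullDimZero_iff_ringKrullDim_eq_zero.mpr hdim
    have h2 := Ideal.krullDimLE_zero_quotient_iff_forall_minimalPrimes_isMaximal.mp h1
    have h3 : maximalIdeal R ≤ (P X D).radical := by
      rw [← Ideal.sInf_minimalPrimes]
      refine le_sInf fun K hK => ?_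
      rw [IsLocalRing.eq_maximalIdeal (h2 K hK)]
    exact Ideal.exists_pow_le_of_le_radical_of_fg h3 (IsNoetherian.noetherian _)
  obtain ⟨N₀, hN₀⟩ := rd_red D X (fun i hi => ⟨(hX i hi).1, (hX i hi).2.2⟩) hfin D le_rfl
  rw [Nat.sub_self, P_zero] at hN₀
  refine ⟨fun l : Fin D => X l, fun l => (hX l l.isLt).1, hreg, N₀, ?_⟩
  rw [hspan]
  have h2 := hN₀ N₀ le_rfl
  rwa [bot_sup_eq] at h2

end Vale.Agent.P202Y
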